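import Crest.Agent.N221.Defs

/-! Row 221: bridge to the Prelude, `GeoS`, `FlowS`, `RiemS` (helper19). -/

set_option autoImplicit false

open Set Filter Topology
open scoped ContDiff RealInnerProductSpace
open Crest.GeometryTopology.Submanifold
open Crest.Agent.R241.DDefs Crest.Agent.R241.D2
open Crest.Agent.R208.J Crest.Agent.R208.L
open Crest.Agent.R241.D (Tan IsProj range_fderiv_eq_Tan secNum_eq gramDet_eq sff_eq
  fderiv_eq_sum_pd mem_S)
open Crest.Agent.R208 (T_eq_Tan span_tangentConeAt exists_geo isGeodesicIn_iff norm_deriv_fl)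

noncomputable section

namespace Crest.Agent.N221

namespace B

variable {n N : ℕ} {κ : ℝ} {S : Set (Euc N)}

lemma isProj (G : Geo n N κ S) : IsProj S G.P :=
  ⟨G.contDiff_P, fun q hq => by rw [G.P_eq q hq, T_eq_Tan G hq]⟩

lemma exists_pre (G : Geo n N κ S) {p : Euc N} {f : Euc n → Euc N} {V : Set (Euc n)}
    (hf : IsLocalParam n N S p f V) {X : Euc N} (hX : X ∈ G.T p) : ∃ u, fderiv ℝ f 0 u = X := by
  have hp : p ∈ S := hf.map_zero ▸ mem_S hf hf.zero_mem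
  rw [T_eq_Tan G hp, ← hf.map_zero, ← range_fderiv_eq_Tan hf hf.zero_mem] at hX
  exact hX

/-- numerator of the sectional curvature -/
def sec (D : Euc N →L[ℝ] Euc N →L[ℝ] Euc N) (v w : Euc N) : ℝ := ⟪D v v, D w w⟫ - ‖D v w‖ ^ 2

lemma sec_smul (D : Euc N →L[ℝ] Euc N →L[ℝ] Euc N) (a b : ℝ) (v w : Euc N) :
    sec D (a • v) (b • w) = a ^ 2 * b ^ 2 * sec D v w := by
  simp only [sec, map_smul, _root_.smul_apply, real_inner_smul_left,
    real_inner_smul_right, norm_smul, mul_pow, Real.norm_eq_abs, sq_abs]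
  ring

lemma sec_add (D : Euc N →L[ℝ] Euc N →L[ℝ] Euc N) (a : ℝ) {v w : Euc N} (h : D v w = D w v) :
    sec D v (w + a • v) = sec D v w := by
  simp only [sec, map_add, map_smul, _root_.add_apply, _root_.smul_apply]
  rw [← h]
  simp only [inner_add_right, real_inner_smul_right, smul_add, smul_smul]
  rw [norm_add_sq_real, norm_smul, mul_pow, Real.norm_eq_abs, sq_abs, real_inner_smul_right,
    real_inner_self_eq_norm_sq, real_inner_comm (D v w) (D v v)]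
  ring

/-- from orthonormal pairs to all pairs -/
lemma sec_le (D : Euc N →L[ℝ] Euc N →L[ℝ] Euc N) (T : Submodule ℝ (Euc N)) (c : ℝ)
    (hs : ∀ v ∈ T, ∀ w ∈ T, D v w = D w v)
    (h : ∀ v ∈ T, ∀ w ∈ T, ‖v‖ = 1 → ‖w‖ = 1 → ⟪v, w⟫ = 0 → sec D v w ≤ c)
    {v w : Euc N} (hv : v ∈ T) (hw : w ∈ T) :
    sec D v w ≤ c * (‖v‖ ^ 2 * ‖w‖ ^ 2 - ⟪v, w⟫ ^ 2) := by
  rcases eq_or_ne v 0 with rfl | hv0
  · simp [sec]
  have hvn : 0 < ‖v‖ := norm_pos_iff.2 hv0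
  obtain ⟨a, ha⟩ : ∃ a : ℝ, ⟪v, w⟫ = a * ‖v‖ ^ 2 := ⟨⟪v, w⟫ / ‖v‖ ^ 2, by field_simp⟩
  obtain ⟨u, rfl⟩ : ∃ u, w = u + a • v := ⟨w - a • v, by abel⟩
  have hu : u ∈ T := by simpa using T.sub_mem hw (T.smul_mem a hv)
  have ho : ⟪v, u⟫ = 0 := by
    rw [inner_add_right, real_inner_smul_right, real_inner_self_eq_norm_sq] at ha
    linarith
  have hn : ‖u + a • v‖ ^ 2 = ‖u‖ ^ 2 + a ^ 2 * ‖v‖ ^ 2 := by
    rw [norm_add_sq_real, real_inner_smul_right, real_inner_comm, ho, norm_smul, mul_pow,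
      Real.norm_eq_abs, sq_abs]
    ring
  rw [sec_add D a (hs v hv u hu), hn, ha]
  rcases eq_or_ne u 0 with rfl | hu0
  · simp only [sec, map_zero, inner_zero_right, norm_zero]
    exact le_of_eq (by ring)
  have hun : 0 < ‖u‖ := norm_pos_iff.2 hu0
  have h1 := h (‖v‖⁻¹ • v) (T.smul_mem _ hv) (‖u‖⁻¹ • u) (T.smul_mem _ hu)
    (norm_smul_inv_norm hv0) (norm_smul_inv_norm hu0)
    (by rw [real_inner_smul_left, real_inner_smul_right, ho, mul_zero, mul_zero])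
  have h2 : sec D v u = ‖v‖ ^ 2 * ‖u‖ ^ 2 * sec D (‖v‖⁻¹ • v) (‖u‖⁻¹ • u) := by
    rw [sec_smul]; field_simp
  rw [h2]
  calc ‖v‖ ^ 2 * ‖u‖ ^ 2 * sec D (‖v‖⁻¹ • v) (‖u‖⁻¹ • u) ≤ ‖v‖ ^ 2 * ‖u‖ ^ 2 * c := by gcongr
    _ = _ := by ring

lemma sum_coords {p : Euc N} {f : Euc n → Euc N} {V : Set (Euc n)} (hf : IsLocalParam n N S p f V)
    (u : Euc n) (i : Fin n) : coords f 0 (fderiv ℝ f 0 u) i = u i := by
  have hl : LinearIndependent ℝ (pd f 0) := by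
    rw [Fintype.linearIndependent_iff]
    intro g hg j
    have h1 : fderiv ℝ f 0 (WithLp.toLp 2 g) = fderiv ℝ f 0 0 := by
      rw [fderiv_eq_sum_pd, map_zero]; exact hg
    exact congrFun (congrArg WithLp.ofLp (hf.injective_fderiv 0 hf.zero_mem h1)) j
  have hd : IsUnit (metricMat f 0).det :=
    (Matrix.posDef_gram_of_linearIndependent hl).det_pos.ne'.isUnit
  have h1 : ∀ j, ⟪fderiv ℝ f 0 u, pd f 0 j⟫ = (metricMat f 0).mulVec u j := fun j => by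
    rw [fderiv_eq_sum_pd, sum_inner]
    simp only [real_inner_smul_left, Matrix.mulVec, dotProduct, metricMat, Matrix.of_apply]
    exact Finset.sum_congr rfl fun k _ => by rw [mul_comm, real_inner_comm]
  have h2 : (metricMat f 0)⁻¹.mulVec ((metricMat f 0).mulVec u) = u := by
    rw [Matrix.mulVec_mulVec, Matrix.nonsing_inv_mul _ hd, Matrix.one_mulVec]
  simp only [coords, h1]
  exact congrFun h2 i

lemma sffVec_eq (G : Geo n N κ S) {p : Euc N} {f : Euc n → Euc N} {V : Set (Euc n)}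
    (hf : IsLocalParam n N S p f V) {X Y : Euc N} (hX : X ∈ G.T p) (hY : Y ∈ G.T p) :
    sffVec f 0 X Y = II G p X Y := by
  obtain ⟨u, rfl⟩ := exists_pre G hf hX
  obtain ⟨v, rfl⟩ := exists_pre G hf hY
  simp only [sffVec, sum_coords hf, sff_eq (isProj G) hf hf.zero_mem, hf.map_zero, II]
  rw [fderiv_eq_sum_pd f 0 u, fderiv_eq_sum_pd f 0 v]
  simp only [map_sum, map_smul, _root_.sum_apply, _root_.smul_apply,
    Finset.smul_sum, smul_smul]
  rw [Finset.sum_comm]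
  simp only [mul_comm]

end B

theorem geoS : GeoS := by
  intro n N S hn hS hc hconn hneg
  obtain ⟨κ, -, ⟨G⟩⟩ := exists_geo hS hc
  have hP := B.isProj G
  let K : Set (TT N × Euc N) := {z | z.1 ∈ US G ∧ (z.1.1, z.2) ∈ US G ∧ ⟪z.1.2, z.2⟫ = 0}
  have hK : IsCompact K := by
    refine ((hc.prod (isCompact_sphere (0 : Euc N) 1)).prod
      (isCompact_sphere (0 : Euc N) 1)).of_isClosed_subset ?_ ?_
    · exact ((isClosed_US G).preimage continuous_fst).inter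
        (((isClosed_US G).preimage (by fun_prop)).inter (isClosed_eq (by fun_prop) continuous_const))
    · exact fun z hz => ⟨⟨hz.1.1.1, by simpa using hz.1.2⟩, by simpa using hz.2.1.2⟩
  have hD : Continuous (fderiv ℝ G.P) := G.contDiff_P.continuous_fderiv (by simp)
  have hF : Continuous fun z : TT N × Euc N => B.sec (fderiv ℝ G.P z.1.1) z.1.2 z.2 := by
    unfold B.sec
    fun_prop
  have hlt : ∀ z ∈ K, B.sec (fderiv ℝ G.P z.1.1) z.1.2 z.2 < 0 := by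
    rintro ⟨⟨x, v⟩, w⟩ ⟨h1, h2, h3⟩
    obtain ⟨f, V, hf⟩ := hS x h1.1.1
    obtain ⟨u, hu⟩ := B.exists_pre G hf h1.1.2
    obtain ⟨u', hu'⟩ := B.exists_pre G hf h2.1.2
    have h4 := hneg x h1.1.1 f V hf u u' (by
      rw [gramDet_eq, hu, hu', h1.2, h2.2, h3]; norm_num)
    rwa [secNum_eq hP hS hf hf.zero_mem, hu, hu', hf.map_zero] at h4
  obtain ⟨a, ha, hb⟩ : ∃ a : ℝ, 0 < a ∧
      ∀ z ∈ K, B.sec (fderiv ℝ G.P z.1.1) z.1.2 z.2 ≤ -(a ^ 2) := by
    rcases K.eq_empty_or_nonempty with h | h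
    · exact ⟨1, one_pos, by simp [h]⟩
    · obtain ⟨z, hz, hm⟩ := hK.exists_isMaxOn h hF.continuousOn
      have h0 := neg_pos.2 (hlt z hz)
      exact ⟨_, Real.sqrt_pos.2 h0, fun y hy => by rw [Real.sq_sqrt h0.le, neg_neg]; exact hm hy⟩
  refine ⟨a, ⟨ha, hS, hc, hconn, hn⟩, ⟨{ G with curv := fun x hx v hv w hw => ?_ }⟩⟩
  exact B.sec_le (fderiv ℝ G.P x) (G.T x) _ (fun v hv w hw => II_symm G hx hv hw)
    (fun v hv w hw h1 h2 h3 => hb ((x, v), w) ⟨⟨⟨hx, hv⟩, h1⟩, ⟨⟨hx, hw⟩, h2⟩, h3⟩) hv hw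

theorem flowS : FlowS := by
  intro n N κ S G hS
  have hU : unitTangent S = US G := by
    ext z
    refine ⟨fun h => ⟨⟨h.1, ?_⟩, h.2.2⟩, fun h => ⟨h.1.1, ?_, h.2⟩⟩
    · rw [T_eq_Tan G h.1, ← span_tangentConeAt hS h.1]; exact h.2.1
    · rw [tangentSpaceAt, span_tangentConeAt hS h.1.1, ← T_eq_Tan G h.1.1]; exact h.1.2
  refine ⟨hU, fun Φ hΦ q hq t => ?_⟩
  obtain ⟨h1, h2, h3, h4⟩ := hΦ q (hU ▸ hq)
  obtain ⟨q', hq', h5⟩ := (isGeodesicIn_iff hS G).1 h1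
  have h6 : (fun t => (Φ t q).1) = fun t => (fl G (q', t)).1 := funext h5
  obtain rfl : q' = q := by
    refine Prod.ext ?_ ?_
    · rw [← h2, h5 0, fl_zero]
    · rw [← h3, h6, (norm_deriv_fl G hq' 0).1, fl_zero]
  refine Prod.ext (h5 t) ?_
  rw [h4 t, h6, (norm_deriv_fl G hq' t).1]
  rfl

theorem riemS : RiemS := by
  intro n N κ S G _ p f V hf X hX Y hY Z hZ W hW
  rw [riem4, R4, B.sffVec_eq G hf hX hW, B.sffVec_eq G hf hY hZ, B.sffVec_eq G hf hX hZ,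
    B.sffVec_eq G hf hY hW]

end Crest.Agent.N221
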