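import Crest.Agent.N221.Defs
import Crest.Agent.N346.T.Cone
import Crest.Agent.R208.G1
import Crest.Agent.R208.L7

/-! Row 221: the Liouville measure of the Prelude is `mu G` (helper37). -/

set_option autoImplicit false

open MeasureTheory Set Filter Topology Metric
open scoped ContDiff RealInnerProductSpace ENNReal
open Crest.GeometryTopology.Submanifold
open Crest.Agent.R241.DDefs Crest.Agent.R241.D2
open Crest.Agent.R208.J Crest.Agent.R208.L

noncomputable section

namespace Crest.Agent.N221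

namespace Liou

variable {n N : ℕ} {κ : ℝ} {S : Set (Euc N)}

theorem exists_c (d : ℕ) : ∃ c : ℝ≥0∞, c ≠ 0 ∧ c ≠ ⊤ ∧
    ∀ N, (Measure.hausdorffMeasure (d : ℝ) : Measure (Euc N)) = c • μHE[d] := by
  have h0 := Measure.addHaarScalarFactor_volume_hausdorffMeasure_ne_zero d
  refine ⟨(Measure.addHaarScalarFactor (volume : Measure (EuclideanSpace ℝ (Fin d))) μH[d] : ℝ≥0∞)⁻¹,
    ENNReal.inv_ne_zero.2 ENNReal.coe_ne_top, ENNReal.inv_ne_top.2 (ENNReal.coe_ne_zero.2 h0),
    fun N => ?_⟩
  ext s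
  rw [Measure.euclideanHausdorffMeasure_def, Measure.smul_apply, Measure.smul_apply, smul_eq_mul,
    ENNReal.smul_def, smul_eq_mul, ← mul_assoc,
    ENNReal.inv_mul_cancel (ENNReal.coe_ne_zero.2 h0) ENNReal.coe_ne_top, one_mul]

theorem fibre (G : Geo (n + 1) N κ S) {p : Euc N} (hp : p ∈ S) :
    (μHE[n] : Measure (Euc N)).restrict {v | v ∈ G.T p ∧ ‖v‖ = 1} = nuF G p := by
  obtain ⟨A, hA, hAT⟩ := exists_frame G hp
  have hn : ∀ y, ‖A y‖ = ‖y‖ := fun y => by
    rw [← sq_eq_sq₀ (norm_nonneg _) (norm_nonneg _), ← real_inner_self_eq_norm_sq,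
      ← real_inner_self_eq_norm_sq, hA]
  have hi : Isometry A := AddMonoidHomClass.isometry_of_norm A hn
  have hm : Measurable fun u : sphere (0 : Euc (n + 1)) 1 => A u :=
    A.continuous.measurable.comp measurable_subtype_coe
  ext B hB
  rw [nuF_eq G (by omega) hp A hA hAT, Measure.map_apply hm hB, Measure.restrict_apply hB,
    ← N346.T.muHE_sphere (m := n) (by simp) (hm hB), ← hi.euclideanHausdorffMeasure_image]
  congr 1
  ext v
  constructor
  · rintro ⟨h1, h2, h3⟩
    obtain ⟨y, rfl⟩ : v ∈ range A := hAT ▸ h2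
    exact ⟨y, ⟨⟨y, mem_sphere_zero_iff_norm.2 (hn y ▸ h3)⟩, h1, rfl⟩, rfl⟩
  · rintro ⟨_, ⟨u, hu, rfl⟩, rfl⟩
    exact ⟨hu, show A u ∈ (G.T p : Set (Euc N)) from hAT ▸ mem_range_self _,
      (hn _).trans (mem_sphere_zero_iff_norm.1 u.2)⟩

theorem measurable_ker (G : Geo n N κ S) (c : ℝ≥0∞) :
    Measurable fun p : Euc N => c • (nuF G p).map fun v => (p, v) := by
  refine Measure.measurable_of_measurable_coe _ fun B hB => ?_
  have h1 : ∀ p : Euc N, (c • (nuF G p).map fun v => (p, v)) B = c * (cst n * gam (Euc N)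
      (Prod.mk p ⁻¹' ((fun z : TT N => (z.1, nrm (G.P z.1 z.2))) ⁻¹' B))) := fun p => by
    rw [Measure.smul_apply, Measure.map_apply measurable_prodMk_left hB, nuF, Measure.smul_apply,
      Measure.map_apply (measurable_nP' G p) (measurable_prodMk_left hB)]
    rfl
  simp only [h1]
  exact ((measurable_measure_prodMk_left
    ((measurable_fst.prodMk (measurable_nP G)) hB)).const_mul _).const_mul _

theorem bind_eq (G : Geo n N κ S) (c : ℝ≥0∞) (hc : c ≠ ⊤) :
    (((μHE[n] : Measure (Euc N)).restrict S).bind fun p => c • (nuF G p).map fun v => (p, v)) =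
      c • nu G := by
  ext B hB
  rw [Measure.bind_apply hB (measurable_ker G c).aemeasurable, Measure.smul_apply, smul_eq_mul,
    ← lintegral_indicator_one hB, lintegral_nu G (measurable_one.indicator hB),
    ← lintegral_const_mul' _ _ hc]
  refine lintegral_congr fun p => ?_
  rw [Measure.smul_apply, smul_eq_mul, ← lintegral_indicator_one hB,
    lintegral_map (measurable_one.indicator hB) measurable_prodMk_left]

end Liou

open Liou

theorem liouS : LiouS := by
  intro n N κ S G hn hS hc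
  obtain ⟨n, rfl⟩ : ∃ m, n = m + 1 := ⟨n - 1, by omega⟩
  obtain ⟨c1, a1, b1, h1⟩ := exists_c (n + 1)
  obtain ⟨c2, a2, b2, h2⟩ := exists_c n
  have h3 : (((Measure.hausdorffMeasure ((n + 1 : ℕ) : ℝ)).restrict S).bind fun p =>
      ((Measure.hausdorffMeasure (((n + 1 : ℕ) : ℝ) - 1)).restrict
        {v : Euc N | v ∈ tangentSpaceAt S p ∧ ‖v‖ = 1}).map fun v => (p, v)) =
      (c1 * c2) • nu G := by
    rw [show ((n + 1 : ℕ) : ℝ) - 1 = n by push_cast; ring, h1, h2, Measure.restrict_smul,
      Measure.bind_smul, mul_smul, ← bind_eq G c2 b2]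
    congr 1
    refine Measure.bind_congr_right ?_
    filter_upwards [ae_restrict_mem hc.measurableSet] with p hp
    rw [Measure.restrict_smul, Measure.map_smul, ← fibre G hp, tangentSpaceAt,
      R208.span_tangentConeAt hS hp, ← R208.T_eq_Tan G hp]
  have a3 := mul_ne_zero a1 a2
  have b3 := ENNReal.mul_ne_top b1 b2
  rw [liouville, mu, h3, Measure.smul_apply, smul_eq_mul, smul_smul,
    ENNReal.mul_inv (.inl a3) (.inl b3), mul_right_comm, ENNReal.inv_mul_cancel a3 b3, one_mul]

end Crest.Agent.N221
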