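import Crest.Agent.N221.Base

/-! Row 221: the normalised Liouville measure, the unit tangent bundle, `IsSys` (helper64). -/

set_option autoImplicit false

open MeasureTheory Measure Set Filter Topology Metric
open scoped ContDiff RealInnerProductSpace ENNReal
open Crest.GeometryTopology.Submanifold
open Crest.Agent.R241.DDefs Crest.Agent.R241.D2 Crest.Agent.R241
open Crest.Agent.R208.J Crest.Agent.R208.L

noncomputable section

namespace Crest.Agent.N221

namespace Mu

lemma jac_pos {U V : Type*} [NormedAddCommGroup U] [InnerProductSpace ℝ U] [FiniteDimensional ℝ U]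
    [NormedAddCommGroup V] [InnerProductSpace ℝ V] [FiniteDimensional ℝ V]
    (A : U →L[ℝ] V) (hA : Function.Injective A) : 0 < AF.jac A := by
  have h1 : Function.Injective (A.adjoint ∘L A : U →L[ℝ] U).toLinearMap := by
    rw [injective_iff_map_eq_zero]
    intro x hx
    have h2 : ⟪A x, A x⟫ = 0 := by
      rw [← ContinuousLinearMap.adjoint_inner_left]
      have h3 : A.adjoint (A x) = 0 := hx
      rw [h3, inner_zero_left]
    have h3 := inner_self_eq_zero.1 h2
    exact (injective_iff_map_eq_zero A).1 hA x h3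
  have h2 : (A.adjoint ∘L A : U →L[ℝ] U).det ≠ 0 := by
    have h3 := LinearEquiv.isUnit_det' (LinearEquiv.ofInjectiveEndo _ h1)
    exact h3.ne_zero
  rw [← AF.jac_sq] at h2
  exact lt_of_le_of_ne (AF.jac_nonneg A) fun h => h2 (by rw [← h]; ring)

variable {n N : ℕ} {κ : ℝ} {S : Set (Euc N)}

/-- open pieces of a submanifold have positive volume -/
theorem muHE_open_pos (hS : IsSubmanifold n N S) {p : Euc N} (hp : p ∈ S) {O : Set (Euc N)}
    (hO : IsOpen O) (hpO : p ∈ O) : μHE[n] (O ∩ S) ≠ 0 := by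
  obtain ⟨f, V, hf⟩ := hS p hp
  have hcont : ContinuousOn f V := hf.contDiffOn.continuousOn
  have hW : IsOpen (V ∩ f ⁻¹' O) := hcont.isOpen_inter_preimage hf.isOpen hO
  set W := V ∩ f ⁻¹' O with hWdef
  have h0 : (0 : Euc n) ∈ W := ⟨hf.zero_mem, by rwa [mem_preimage, hf.map_zero]⟩
  have hsub : f '' W ⊆ O ∩ S := by
    rintro _ ⟨x, hx, rfl⟩
    exact ⟨hx.2, Crest.Agent.R241.D.mem_S hf hx.1⟩
  intro h
  have h1 : μHE[n] (f '' W) = 0 := measure_mono_null hsub h
  rw [AF.muHE_image_Euc hf.isOpen inter_subset_left hW.measurableSet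
    (hf.contDiffOn.differentiableOn (by simp)) (hf.injOn.mono inter_subset_left)] at h1
  have hjc : ContinuousOn (fun x => AF.jac (fderiv ℝ f x)) W := by
    have h2 : ContinuousOn (fderiv ℝ f) V :=
      hf.contDiffOn.continuousOn_fderiv_of_isOpen hf.isOpen (by simp)
    exact AF.continuous_jac.comp_continuousOn (h2.mono inter_subset_left)
  have hjm : AEMeasurable (fun x => ENNReal.ofReal (AF.jac (fderiv ℝ f x)))
      (volume.restrict W) := (hjc.aemeasurable hW.measurableSet).ennreal_ofReal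
  rw [setLIntegral_eq_zero_iff' hW.measurableSet hjm] at h1
  have h2 : volume W = 0 := by
    refine measure_mono_null (fun x hx => ?_) (ae_iff.1 h1)
    have h3 := jac_pos _ (hf.injective_fderiv x hx.1)
    simp only [mem_ofPred_eq, Classical.not_imp]
    exact ⟨hx, (ENNReal.ofReal_pos.2 h3).ne'⟩
  exact (hW.measure_pos volume ⟨0, h0⟩).ne' h2

theorem muHE_ne_zero (hS : IsSubmanifold n N S) (hne : S.Nonempty) : μHE[n] S ≠ 0 := by
  obtain ⟨p, hp⟩ := hne
  simpa using muHE_open_pos hS hp isOpen_univ (mem_univ p)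

variable (G : Geo n N κ S)

/-- the fibre of the unit tangent bundle is connected -/
lemma isConnected_fibre (hn : 2 ≤ n) {x : Euc N} (hx : x ∈ S) :
    IsConnected {q | q ∈ US G ∧ q.1 = x} := by
  obtain ⟨b, hb⟩ := Crest.Agent.R208.exists_frame G hx
  have hr : 1 < Module.rank ℝ (Euc n) := by
    rw [← Module.finrank_eq_rank, finrank_euclideanSpace_fin]
    exact_mod_cast hn
  have h := (isConnected_sphere hr (0 : Euc n) zero_le_one).image (fun w => (x, b w))
    (by fun_prop)
  convert h using 1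
  ext ⟨y, v⟩
  constructor
  · rintro ⟨⟨⟨-, hv⟩, h1⟩, rfl⟩
    obtain ⟨w, rfl⟩ := Crest.Agent.R208.exists_frame_eq hb hv
    exact ⟨w, by simpa using h1, rfl⟩
  · rintro ⟨w, hw, h⟩
    obtain ⟨rfl, rfl⟩ := Prod.mk.inj h
    exact ⟨⟨⟨hx, Crest.Agent.R208.frame_mem hb w⟩, by simpa using hw⟩, rfl⟩

lemma isConnected_US (hn : 2 ≤ n) (hc : IsCompact S) (hS : IsConnected S) :
    IsConnected (US G) := by
  constructor
  · obtain ⟨x, hx⟩ := hS.nonempty
    obtain ⟨q, hq, -⟩ := (isConnected_fibre G hn hx).nonempty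
    exact ⟨q, hq⟩
  rw [isPreconnected_iff_subset_of_fully_disjoint_closed (isClosed_US G)]
  intro u v hu hv huv hd
  have hK := isCompact_US G hc
  have fib : ∀ x ∈ S, {q | q ∈ US G ∧ q.1 = x} ⊆ u ∨ {q | q ∈ US G ∧ q.1 = x} ⊆ v := fun x hx =>
    isPreconnected_iff_subset_of_disjoint_closed.1 (isConnected_fibre G hn hx).2 u v hu hv
      (fun q hq => huv hq.1) (by rw [hd.inter_eq, inter_empty])
  have key : ∀ {u v : Set (TT N)}, Disjoint u v → US G ⊆ u ∪ v →
      (∀ x ∈ S, {q | q ∈ US G ∧ q.1 = x} ⊆ u ∨ {q | q ∈ US G ∧ q.1 = x} ⊆ v) →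
      ∀ q ∈ US G, q.1 ∈ Prod.fst '' (US G ∩ u) → q ∈ u := by
    rintro u v hd - fib q hq ⟨q', ⟨h1, h2⟩, h3⟩
    rcases fib q.1 hq.1.1 with h | h
    · exact h ⟨hq, rfl⟩
    · exact absurd (h ⟨h1, h3⟩) (disjoint_left.1 hd h2)
  have k1 := key hd huv fib
  have k2 := key hd.symm (by rwa [union_comm]) fun x hx => (fib x hx).symm
  have := isPreconnected_iff_subset_of_disjoint_closed.1 hS.2 (Prod.fst '' (US G ∩ u))
    (Prod.fst '' (US G ∩ v)) ((hK.inter_right hu).image continuous_fst).isClosed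
    ((hK.inter_right hv).image continuous_fst).isClosed
    (fun x hx => by
      obtain ⟨q, hq, rfl⟩ := (isConnected_fibre G hn hx).nonempty
      rcases huv hq with h | h
      · exact Or.inl ⟨q, ⟨hq, h⟩, rfl⟩
      · exact Or.inr ⟨q, ⟨hq, h⟩, rfl⟩)
    (eq_empty_of_forall_notMem fun x ⟨_, ⟨q, ⟨h1, h2⟩, h3⟩, h4⟩ =>
      disjoint_left.1 hd h2 (k2 q h1 (h3 ▸ h4)))
  exact this.imp (fun h q hq => k1 q hq (h hq.1.1)) fun h q hq => k2 q hq (h hq.1.1)

lemma map_neg_gam (N : ℕ) : Measure.map (fun z => -z) (gam (Euc N)) = gam (Euc N) := by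
  have h := map_gam_eq (-ContinuousLinearMap.id ℝ (Euc N)) (ContinuousLinearMap.id ℝ (Euc N))
    (A' := fun z => -z) (B' := fun z => z) (fun x t => by simp) (fun x t => by simp)
    (fun t => by simp)
  rw [ContinuousLinearMap.coe_id', Measure.map_id] at h
  exact h

lemma measurable_rev : Measurable (rev : TT N → TT N) :=
  measurable_fst.prodMk measurable_snd.neg

lemma nrm_neg (v : Euc N) : nrm (-v) = -nrm v := by simp [nrm]

lemma map_rev_nu : Measure.map rev (nu G) = nu G := by
  refine Measure.ext_of_lintegral _ fun F hF => ?_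
  rw [lintegral_map hF measurable_rev,
    lintegral_nu G (F := fun q => F (rev q)) (hF.comp measurable_rev), lintegral_nu G hF]
  refine lintegral_congr fun p => ?_
  have hp : Measurable fun u => F (p, u) := hF.comp measurable_prodMk_left
  rw [lintegral_nuF G p hp,
    lintegral_nuF G p (F := fun u => F (rev (p, u))) (hp.comp measurable_neg)]
  congr 1
  conv_rhs => rw [← map_neg_gam N]
  rw [lintegral_map (f := fun z => F (p, nrm (G.P p z))) (hp.comp (measurable_nP' G p))
    measurable_neg]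
  simp only [map_neg, nrm_neg]
  rfl

end Mu

open Mu

theorem muS : MuS := by
  intro n N a S G h
  have hn1 : 1 ≤ n := by have := h.hn; omega
  have hfin := isFiniteMeasure_nu G h.sub h.cpt
  have h0 : nu G univ ≠ 0 := by
    rw [nu_univ]
    exact mul_ne_zero (cst_ne_zero hn1) (muHE_ne_zero h.sub h.conn.nonempty)
  refine ⟨isCompact_US G h.cpt, isConnected_US G (by have := h.hn; omega) h.cpt h.conn, ⟨?_⟩, ?_,
    fun t => ⟨measurable_fl_left G t, ?_⟩, measurable_rev, ?_⟩
  · rw [mu, Measure.smul_apply, smul_eq_mul, ENNReal.inv_mul_cancel h0 (measure_ne_top _ _)]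
  · rw [mu, Measure.smul_apply, nu_compl_US G hn1, smul_zero]
  · rw [mu, Measure.map_smul]
    exact congrArg _ (map_fl_nu G hn1 h.sub t)
  · rw [mu, Measure.map_smul, map_rev_nu]

theorem sysS (hU : UExS) : SysS := by
  intro n N a S G h
  obtain ⟨h1, h2, h3, h4, h5, -⟩ := muS n N a S G h
  refine ⟨h1, h2.2, fun t q hq => fl_US hq t, fun z _ => fl_zero G z, fun s t z hz => ?_, ?_, h3, h4,
    fun A hA => ?_, ?_⟩
  · rw [add_comm]
    exact fl_add' G hz.1 t s
  · exact (continuousOn_fl G).comp continuous_swap.continuousOn fun p hp => ⟨hp.2.1, mem_univ _⟩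
  · rw [inter_comm, measure_inter_conull h4, (h5 1).measure_preimage hA.nullMeasurableSet]
  · exact (LinearMap.continuous_of_finiteDimensional ((LinearMap.trace ℝ (Euc N)).comp
      (ContinuousLinearMap.coeLM ℝ))).comp_continuousOn (hU n N a S G h).cont

end Crest.Agent.N221
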